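import Vale.Agent.P181.H983.TDefs

set_option autoImplicit false

/-!
# P181, tall shapes, block S3: the operator `colZ` on forms
-/

namespace Vale.Agent.P181.H964.S3

open Vale.Agent.P181 Vale.Agent.P181.H280 Vale.Agent.P181.H270 Vale.Agent.P181.H73 Finset
  MvPolynomial
open Vale.Agent.P181.H983 (colPerm colSum colZ wv)

section Nat

variable {κ κ' : Type} {M a : ℕ}

theorem colPerm_map [DecidableEq κ] [DecidableEq κ'] (φ : κ' ≃ κ) (ι : Fin M × Fin a ↪ κ')
    (τ : Fin M → Equiv.Perm (Fin a)) (p : κ') :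
    colPerm (ι.trans φ.toEmbedding) τ (φ p) = φ (colPerm ι τ p) := by
  unfold colPerm
  by_cases h : p ∈ Set.range ι
  · obtain ⟨x, rfl⟩ := h
    rw [Equiv.Perm.viaEmbedding_apply]
    exact Equiv.Perm.viaEmbedding_apply _ (ι.trans φ.toEmbedding) x
  · rw [Equiv.Perm.viaEmbedding_apply_of_notMem _ _ _ h,
      Equiv.Perm.viaEmbedding_apply_of_notMem]
    rintro ⟨x, hx⟩
    exact h ⟨x, φ.injective hx⟩

theorem colSum_map [DecidableEq κ] [DecidableEq κ'] {α : Type} (φ : κ' ≃ κ)
    (Φ' : (κ' → α) → ℂ) (Φ : (κ → α) → ℂ) (h : ∀ w, Φ' (fun p => w (φ p)) = Φ w)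
    (ι : Fin M × Fin a ↪ κ') (w : κ → α) :
    colSum (ι.trans φ.toEmbedding) Φ w = colSum ι Φ' (fun p => w (φ p)) := by
  unfold colSum
  refine Finset.sum_congr rfl fun τ _ => ?_
  rw [← h]
  congr 2
  funext p
  rw [colPerm_map]

theorem colZ_map [Fintype κ] [Fintype κ'] [DecidableEq κ] [DecidableEq κ'] {α : Type}
    (φ : κ' ≃ κ) (Φ' : (κ' → α) → ℂ) (Φ : (κ → α) → ℂ)
    (h : ∀ w, Φ' (fun p => w (φ p)) = Φ w) (w : κ → α) :
    colZ M a Φ' (fun p => w (φ p)) = colZ M a Φ w := by
  unfold colZ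
  refine Fintype.sum_equiv (Equiv.embeddingCongr (Equiv.refl _) φ) _ _ fun ι => ?_
  rw [← colSum_map φ Φ' Φ h ι w]
  rfl

end Nat

section Words

/-- Two maps with fibres of the same size differ by a bijection. -/
theorem exists_equiv {α γ β : Type} [Fintype α] [Fintype γ] [DecidableEq β] (f : α → β)
    (g : γ → β) (h : ∀ b, (univ.filter fun x => f x = b).card =
      (univ.filter fun y => g y = b).card) : ∃ e : α ≃ γ, ∀ x, g (e x) = f x := by
  have h1 : ∀ b, Fintype.card {x // f x = b} = Fintype.card {y // g y = b} := by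
    intro b
    rw [Fintype.card_subtype, Fintype.card_subtype]
    exact h b
  refine ⟨(Equiv.sigmaFiberEquiv f).symm.trans ((Equiv.sigmaCongrRight fun b =>
    Fintype.equivOfCardEq (h1 b)).trans (Equiv.sigmaFiberEquiv g)), fun x => ?_⟩
  exact (Fintype.equivOfCardEq (h1 (f x)) ⟨x, rfl⟩).2

variable {a d : ℕ}

/-- The monomial of a word. -/
noncomputable def mon (u : Fin d → Fin a) : Fin a →₀ ℕ := ∑ k, Finsupp.single (u k) 1

theorem mon_apply (u : Fin d → Fin a) (i : Fin a) :
    mon u i = (univ.filter fun k => u k = i).card := by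
  unfold mon
  rw [Finsupp.finsetSum_apply, Finset.card_filter]
  refine Finset.sum_congr rfl fun k _ => ?_
  rw [Finsupp.single_apply]

theorem prod_X (u : Fin d → Fin a) :
    ∏ k, (X (u k) : MvPolynomial (Fin a) ℂ) = monomial (mon u) 1 := by
  unfold mon
  rw [MvPolynomial.monomial_sum_one]
  rfl

theorem exists_perm {u v : Fin d → Fin a} (h : mon u = mon v) :
    ∃ e : Equiv.Perm (Fin d), ∀ k, v (e k) = u k :=
  exists_equiv u v fun i => by rw [← mon_apply, ← mon_apply, h]

/-- The number of the words with the same monomial. -/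
noncomputable def cnt (u : Fin d → Fin a) : ℂ :=
  ((univ.filter fun v : Fin d → Fin a => mon u = mon v).card : ℂ)

theorem cnt_ne (u : Fin d → Fin a) : cnt u ≠ 0 := by
  unfold cnt
  rw [Nat.cast_ne_zero, Finset.card_ne_zero]
  exact ⟨u, by simp⟩

theorem cnt_congr {u v : Fin d → Fin a} (h : mon u = mon v) : cnt u = cnt v := by
  unfold cnt
  rw [h]

theorem sum_cnt (u : Fin d → Fin a) :
    ∑ v : Fin d → Fin a, (if mon u = mon v then (cnt u)⁻¹ else 0) = 1 := by
  rw [← Finset.sum_filter, Finset.sum_const, nsmul_eq_mul]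
  exact mul_inv_cancel₀ (cnt_ne u)

end Words

section Form

variable {a : ℕ} (M d : ℕ) (F : MultilinearMap ℂ (fun _ : Fin a => MvPolynomial (Fin a) ℂ) ℂ)

/-- The value of the operator at a word with `d` letters in each slot. -/
noncomputable def zv (W : Fin a → Fin d → Fin a) : ℂ :=
  colZ M a (wv (fun p : Fin a × Fin d => p.1) F) (fun p => W p.1 p.2)

/-- The form. -/
noncomputable def zf : MultilinearMap ℂ (fun _ : Fin a => MvPolynomial (Fin a) ℂ) ℂ :=
  ∑ W : Fin a → Fin d → Fin a, (zv M d F W * ∏ i, (cnt (W i))⁻¹) •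
    (MultilinearMap.mkPiAlgebra ℂ (Fin a) ℂ).compLinearMap fun i => lcoeff ℂ (mon (W i))

theorem zf_apply (P : Fin a → MvPolynomial (Fin a) ℂ) :
    zf M d F P = ∑ W : Fin a → Fin d → Fin a, (zv M d F W * ∏ i, (cnt (W i))⁻¹) *
      ∏ i, coeff (mon (W i)) (P i) := by
  unfold zf
  rw [_root_.sum_apply]
  rfl

variable {M d F}

/-- A bijection of the positions which does not change the slots. -/
theorem zv_congr {W U : Fin a → Fin d → Fin a} (h : ∀ i, mon (W i) = mon (U i)) :
    zv M d F W = zv M d F U := by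
  choose e he using fun i => exists_perm (h i)
  unfold zv
  have h1 := colZ_map (M := M) (a := a) (Equiv.prodCongrRight e : Fin a × Fin d ≃ Fin a × Fin d)
    (wv (fun p : Fin a × Fin d => p.1) F) (wv (fun p : Fin a × Fin d => p.1) F) (fun w => by
      unfold wv
      congr 1
      funext i
      unfold cont
      refine Fintype.prod_equiv (Equiv.prodCongrRight e) _ _ fun p => ?_
      rfl) (fun p => U p.1 p.2)
  rw [← h1]
  congr 1
  funext p
  exact (he p.1 p.2).symm

theorem zv_perm (hF : IsSymm F) (σ : Equiv.Perm (Fin a)) (W : Fin a → Fin d → Fin a) :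
    zv M d F (fun i => W (σ i)) = zv M d F W := by
  unfold zv
  refine colZ_map (M := M) (a := a) (Equiv.prodCongr σ (Equiv.refl (Fin d)))
    (wv (fun p : Fin a × Fin d => p.1) F) (wv (fun p : Fin a × Fin d => p.1) F) (fun w => ?_)
    (fun p => W p.1 p.2)
  unfold wv
  have h1 : cont (fun p : Fin a × Fin d => p.1)
      (fun p => (X (w ((Equiv.prodCongr σ (Equiv.refl (Fin d))) p)) : MvPolynomial (Fin a) ℂ)) =
      fun i => cont (fun p : Fin a × Fin d => p.1) (fun p => X (w p)) (σ i) := by
    funext i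
    unfold cont
    refine Fintype.prod_equiv (Equiv.prodCongr σ (Equiv.refl (Fin d))) _ _ fun p => ?_
    change (if p.1 = i then _ else _) = (if σ p.1 = σ i then _ else _)
    by_cases hp : p.1 = i
    · rw [if_pos hp, if_pos (congrArg σ hp)]
    · rw [if_neg hp, if_neg fun h => hp (σ.injective h)]
  rw [h1]
  exact hF σ _

theorem zf_monomial (U : Fin a → Fin d → Fin a) :
    zf M d F (fun i => monomial (mon (U i)) 1) = zv M d F U := by
  rw [zf_apply]
  have h1 : ∀ W : Fin a → Fin d → Fin a, (zv M d F W * ∏ i, (cnt (W i))⁻¹) *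
      ∏ i, coeff (mon (W i)) (monomial (mon (U i)) (1 : ℂ)) =
      zv M d F U * ∏ i, (if mon (U i) = mon (W i) then (cnt (U i))⁻¹ else 0) := by
    intro W
    by_cases h : ∀ i, mon (U i) = mon (W i)
    · rw [← zv_congr h, mul_assoc, ← Finset.prod_mul_distrib]
      congr 1
      refine Finset.prod_congr rfl fun i _ => ?_
      rw [coeff_monomial, if_pos (h i), if_pos (h i), mul_one, cnt_congr (h i)]
    · push Not at h
      obtain ⟨i, hi⟩ := h
      rw [Finset.prod_eq_zero (f := fun i => coeff (mon (W i)) (monomial (mon (U i)) (1 : ℂ)))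
        (Finset.mem_univ i) (by rw [coeff_monomial, if_neg hi]),
        Finset.prod_eq_zero (f := fun i => if mon (U i) = mon (W i) then (cnt (U i))⁻¹ else 0)
        (Finset.mem_univ i) (if_neg hi), mul_zero, mul_zero]
  rw [Finset.sum_congr rfl fun W _ => h1 W, ← Finset.mul_sum]
  have h2 := Finset.prod_univ_sum (fun _ : Fin a => (univ : Finset (Fin d → Fin a)))
    (fun i v => if mon (U i) = mon v then (cnt (U i))⁻¹ else 0)
  rw [Fintype.piFinset_univ] at h2
  rw [← h2, Finset.prod_congr rfl fun i _ => sum_cnt (U i), Finset.prod_const_one, mul_one]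

theorem zf_symm (hF : IsSymm F) : IsSymm (zf M d F) := by
  intro σ P
  rw [zf_apply, zf_apply]
  refine Fintype.sum_equiv (Equiv.arrowCongr σ (Equiv.refl (Fin d → Fin a))) _ _ fun W => ?_
  have h1 : ∀ i, (Equiv.arrowCongr σ (Equiv.refl (Fin d → Fin a)) W) (σ i) = W i := by
    intro i
    simp
  generalize Equiv.arrowCongr σ (Equiv.refl (Fin d → Fin a)) W = W' at h1
  have hW : (fun i => W' (σ i)) = W := funext h1
  have e1 : zv M d F W' = zv M d F W := by rw [← zv_perm hF σ W', hW]
  have e2 : ∏ i, (cnt (W' i))⁻¹ = ∏ i, (cnt (W i))⁻¹ := by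
    rw [← Equiv.prod_comp σ (fun i => (cnt (W' i))⁻¹)]
    exact Finset.prod_congr rfl fun i _ => by rw [h1]
  have e3 : ∏ i, coeff (mon (W' i)) (P i) = ∏ i, coeff (mon (W i)) (P (σ i)) := by
    rw [← Equiv.prod_comp σ (fun i => coeff (mon (W' i)) (P i))]
    exact Finset.prod_congr rfl fun i _ => by rw [h1]
  rw [e1, e2, e3]

theorem zf_word {κ : Type} [Fintype κ] [DecidableEq κ] (s : κ → Fin a)
    (hs : ∀ p, (univ.filter (fun k => s k = p)).card = d) (w : κ → Fin a) :
    wv s (zf M d F) w = colZ M a (wv s F) w := by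
  obtain ⟨φ, hφ⟩ := exists_equiv (fun p : Fin a × Fin d => p.1) s (fun i => by
    rw [hs i]
    have h : (univ.filter fun p : Fin a × Fin d => p.1 = i) = {i} ×ˢ univ := by
      ext p
      simp only [Finset.mem_filter, Finset.mem_univ, true_and, Finset.mem_product,
        Finset.mem_singleton, and_true]
    rw [h, Finset.card_product, Finset.card_singleton, one_mul, Finset.card_univ,
      Fintype.card_fin])
  have hc : ∀ w' : κ → Fin a, ∀ i, cont s (fun q => (X (w' q) : MvPolynomial (Fin a) ℂ)) i =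
      ∏ k, X (w' (φ (i, k))) := by
    intro w' i
    unfold cont
    rw [← Equiv.prod_comp φ, Fintype.prod_prod_type, Finset.prod_eq_single i]
    · refine Finset.prod_congr rfl fun k _ => ?_
      rw [if_pos (hφ (i, k))]
    · intro j _ hj
      refine Finset.prod_eq_one fun k _ => ?_
      rw [if_neg]
      rw [hφ]
      exact hj
    · intro h
      exact absurd (Finset.mem_univ _) h
  have h1 : wv s (zf M d F) w = zv M d F (fun i k => w (φ (i, k))) := by
    rw [← zf_monomial]
    unfold wv
    congr 1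
    funext i
    rw [hc, prod_X]
  rw [h1]
  unfold zv
  refine colZ_map (M := M) (a := a) φ (wv (fun p : Fin a × Fin d => p.1) F) (wv s F)
    (fun w' => ?_) w
  unfold wv
  congr 1
  funext i
  rw [hc]
  unfold cont
  rw [Fintype.prod_prod_type, Finset.prod_eq_single i]
  · refine Finset.prod_congr rfl fun k _ => ?_
    rw [if_pos rfl]
  · intro j _ hj
    refine Finset.prod_eq_one fun k _ => ?_
    rw [if_neg hj]
  · intro h
    exact absurd (Finset.mem_univ _) h

end Form

/-- **(S3)** the operator `colZ` on forms. -/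
theorem s3 : Vale.Agent.P181.H983.S3 := by
  intro M a d F hF
  exact ⟨zf M d F, zf_symm hF, fun κ _ _ s hs w => zf_word s hs w⟩

end Vale.Agent.P181.H964.S3

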