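import Vale.Agent.P181.H75.RDefs

/-! # P181, row [R3]: the signed number of `k`-subsets of `{0, .., b-1}` is not zero -/

open Polynomial

namespace Vale.Agent.P181.H964.R3

theorem prod_signs (m : ℕ) :
    ∏ j ∈ Finset.range (2 * m), (1 + C ((-1 : ℤ) ^ j) * X : ℤ[X]) = (1 - X ^ 2) ^ m := by
  induction m with
  | zero => simp
  | succ m ih =>
    rw [show 2 * (m + 1) = 2 * m + 1 + 1 by ring, Finset.prod_range_succ, Finset.prod_range_succ,
      ih, pow_succ (-1 : ℤ) (2 * m), pow_mul]
    norm_num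
    ring

theorem coeff_prod (b k : ℕ) :
    (∏ j ∈ Finset.range b, (1 + C ((-1 : ℤ) ^ j) * X : ℤ[X])).coeff k =
      ∑ K ∈ (Finset.range b).powersetCard k, (-1 : ℤ) ^ (∑ i ∈ K, i) := by
  rw [Finset.prod_one_add, Polynomial.finsetSum_coeff, Finset.powersetCard_eq_filter,
    Finset.sum_filter]
  refine Finset.sum_congr rfl fun K _ => ?_
  rw [Finset.prod_mul_distrib, Finset.prod_const, ← map_prod, Finset.prod_pow_eq_pow_sum,
    Polynomial.coeff_C_mul, Polynomial.coeff_X_pow]
  by_cases h : K.card = k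
  · rw [if_pos h.symm, if_pos h, mul_one]
  · rw [if_neg (fun e => h e.symm), if_neg h, mul_zero]

theorem coeff_even (m j : ℕ) :
    ((1 - X ^ 2 : ℤ[X]) ^ m).coeff (2 * j) = (-1) ^ j * (m.choose j : ℤ) := by
  rw [show (1 - X ^ 2 : ℤ[X]) = C (-1) * X ^ 2 + 1 by simp; ring, add_pow,
    Polynomial.finsetSum_coeff]
  have h1 : ∀ i ∈ Finset.range (m + 1),
      ((C (-1) * X ^ 2 : ℤ[X]) ^ i * 1 ^ (m - i) * (m.choose i : ℤ[X])).coeff (2 * j) =
        if i = j then (-1) ^ j * (m.choose j : ℤ) else 0 := by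
    intro i _
    rw [one_pow, mul_one, mul_pow, ← pow_mul, ← C_pow, ← Polynomial.C_eq_natCast, mul_comm,
      ← mul_assoc, ← C_mul, Polynomial.coeff_C_mul, Polynomial.coeff_X_pow]
    by_cases h : i = j
    · subst h
      rw [if_pos rfl, if_pos rfl]
      simp; ring
    · rw [if_neg (by omega), if_neg h, mul_zero]
  rw [Finset.sum_congr rfl h1, Finset.sum_ite_eq']
  split_ifs with h
  · rfl
  · rw [Finset.mem_range, not_lt] at h
    rw [Nat.choose_eq_zero_of_lt (by omega)]
    simp

/-- even number of particles, even number of dissolved ones -/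
theorem sum_even (m j : ℕ) :
    ∑ K ∈ (Finset.range (2 * m)).powersetCard (2 * j), (-1 : ℤ) ^ (∑ i ∈ K, i) =
      (-1) ^ j * (m.choose j : ℤ) := by
  rw [← coeff_prod, prod_signs, coeff_even]

/-- **[R3]** -/
theorem sum_ne_zero {a b k q : ℕ} (hb : Even b) (h : b = q * a + k) :
    (∑ K ∈ (Finset.range b).powersetCard k, (-1 : ℤ) ^ ((a - 1) * ∑ i ∈ K, i)) ≠ 0 := by
  rcases Nat.even_or_odd (a - 1) with he | ho
  · have h1 : ∀ K ∈ (Finset.range b).powersetCard k,
        (-1 : ℤ) ^ ((a - 1) * ∑ i ∈ K, i) = 1 := by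
      intro K _
      rw [pow_mul, he.neg_one_pow, one_pow]
    rw [Finset.sum_congr rfl h1, Finset.sum_const, Finset.card_powersetCard, Finset.card_range]
    have h2 : 0 < b.choose k := Nat.choose_pos (by rw [h]; exact Nat.le_add_left _ _)
    simp only [mul_one, nsmul_eq_mul]
    exact_mod_cast h2.ne'
  · have h1 : ∀ K ∈ (Finset.range b).powersetCard k,
        (-1 : ℤ) ^ ((a - 1) * ∑ i ∈ K, i) = (-1) ^ (∑ i ∈ K, i) := by
      intro K _
      rw [pow_mul, ho.neg_one_pow]
    rw [Finset.sum_congr rfl h1]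
    have ha : Even a := by
      obtain ⟨c, hc⟩ := ho
      exact ⟨c + 1, by omega⟩
    have hk : Even k := by
      rw [h] at hb
      rcases Nat.even_add.1 hb with h3
      exact h3.1 (ha.mul_left q)
    obtain ⟨m, hm⟩ := hb
    obtain ⟨j, hj⟩ := hk
    have hkb : k ≤ b := by rw [h]; exact Nat.le_add_left _ _
    rw [show b = 2 * m by omega, show k = 2 * j by omega, sum_even]
    have h2 : 0 < m.choose j := Nat.choose_pos (by omega)
    exact mul_ne_zero (pow_ne_zero _ (by norm_num)) (by exact_mod_cast h2.ne')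

/-- the same sum over subsets of `Fin b` -/
theorem sum_fin (b k : ℕ) (ε : ℤ) :
    ∑ K ∈ Finset.powersetCard k (Finset.univ : Finset (Fin b)), ε ^ (∑ s ∈ K, (s : ℕ)) =
      ∑ K ∈ (Finset.range b).powersetCard k, ε ^ (∑ i ∈ K, i) := by
  have h1 : Finset.range b = (Finset.univ : Finset (Fin b)).map Fin.valEmbedding := by
    rw [Fin.map_valEmbedding_univ, Nat.Iio_eq_range]
  rw [h1, Finset.powersetCard_map, Finset.sum_map]
  refine Finset.sum_congr rfl fun K _ => ?_
  congr 1
  change _ = ∑ i ∈ K.map Fin.valEmbedding, i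
  rw [Finset.sum_map]
  rfl

/-- **[R3]**, literal of H75/RDefs -/
theorem r3 : Vale.Agent.P181.H75.R3 := by
  intro a k b ha hk hb hor
  rw [sum_fin]
  rcases Nat.even_or_odd (a - 1) with he | ho
  · rw [he.neg_one_pow]
    simp only [one_pow, Finset.sum_const, Finset.card_powersetCard, Finset.card_range,
      nsmul_eq_mul, mul_one]
    exact_mod_cast (Nat.choose_pos hk).ne'
  · rw [ho.neg_one_pow]
    have hke : Even k := by
      rcases hor with h | h
      · obtain ⟨c, hc⟩ := h
        obtain ⟨d, hd⟩ := ho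
        omega
      · exact h
    obtain ⟨m, hm⟩ := hb
    obtain ⟨j, hj⟩ := hke
    rw [show b = 2 * m by omega, show k = 2 * j by omega, sum_even]
    have h2 : 0 < m.choose j := Nat.choose_pos (by omega)
    exact mul_ne_zero (pow_ne_zero _ (by norm_num)) (by exact_mod_cast h2.ne')

end Vale.Agent.P181.H964.R3
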